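import Vale.Agent.Lib.P042.UB.Defs

set_option autoImplicit false

namespace Vale.Agent.P042.UB

/-- The exact form of the van der Corput / Weyl identity, by induction on the length. -/
theorem sq_norm_sum_eq (a : ℕ → ℂ) (ha : ∀ n, ‖a n‖ = 1) (M : ℕ) :
    ‖∑ n ∈ Finset.Icc 1 M, a n‖ ^ 2 = M + 2 * (∑ h ∈ Finset.Icc 1 M,
      ∑ n ∈ Finset.Icc 1 (M - h), a (n + h) * (starRingEnd ℂ) (a n)).re := by
  induction M with
  | zero => simp
  | succ M ih =>
    have h1 : ∑ h ∈ Finset.Icc 1 (M + 1), ∑ n ∈ Finset.Icc 1 (M + 1 - h),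
        a (n + h) * (starRingEnd ℂ) (a n) =
        (∑ h ∈ Finset.Icc 1 M, ∑ n ∈ Finset.Icc 1 (M - h), a (n + h) * (starRingEnd ℂ) (a n)) +
        a (M + 1) * (starRingEnd ℂ) (∑ n ∈ Finset.Icc 1 M, a n) := by
      rw [Finset.sum_Icc_succ_top (by omega)]
      have h0 : ∑ n ∈ Finset.Icc 1 (M + 1 - (M + 1)), a (n + (M + 1)) * (starRingEnd ℂ) (a n) =
          0 := by simp
      rw [h0, add_zero]
      have h2 : ∀ h ∈ Finset.Icc 1 M, ∑ n ∈ Finset.Icc 1 (M + 1 - h),
          a (n + h) * (starRingEnd ℂ) (a n) =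
          (∑ n ∈ Finset.Icc 1 (M - h), a (n + h) * (starRingEnd ℂ) (a n)) +
          a (M + 1) * (starRingEnd ℂ) (a (M + 1 - h)) := by
        intro h hh
        rw [Finset.mem_Icc] at hh
        rw [show M + 1 - h = (M - h) + 1 by omega, Finset.sum_Icc_succ_top (by omega),
          show M - h + 1 + h = M + 1 by omega]
      rw [Finset.sum_congr rfl h2, Finset.sum_add_distrib]
      congr 1
      rw [map_sum, Finset.mul_sum]
      refine Finset.sum_nbij' (fun h => M + 1 - h) (fun h => M + 1 - h) ?_ ?_ ?_ ?_ ?_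
      · intro h hh; rw [Finset.mem_Icc] at hh ⊢; omega
      · intro h hh; rw [Finset.mem_Icc] at hh ⊢; omega
      · intro h hh; rw [Finset.mem_Icc] at hh; omega
      · intro h hh; rw [Finset.mem_Icc] at hh; omega
      · intro h hh; rfl
    rw [h1, Finset.sum_Icc_succ_top (by omega)]
    set S := ∑ n ∈ Finset.Icc 1 M, a n with hS
    have h3 : ‖S + a (M + 1)‖ ^ 2 =
        ‖S‖ ^ 2 + 2 * (a (M + 1) * (starRingEnd ℂ) S).re + ‖a (M + 1)‖ ^ 2 := by
      rw [← Complex.normSq_eq_norm_sq, ← Complex.normSq_eq_norm_sq, ← Complex.normSq_eq_norm_sq,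
        Complex.normSq_add]
      have : (S * (starRingEnd ℂ) (a (M + 1))).re = (a (M + 1) * (starRingEnd ℂ) S).re := by
        simp [Complex.mul_re]; ring
      rw [this]; ring
    rw [h3, ih, ha, Complex.add_re]
    push_cast
    ring

/-- Weyl differencing.

PROOF. `|S|² = ∑_{n,n'} e(φ(n) - φ(n')) = M + 2 Re ∑_{h=1}^{M-1} T_h` with
`T_h = ∑_{n=1}^{M-h} e(φ(n+h) - φ(n))`. So `δ² M² ≤ M + 2 ∑_h |T_h|`, and `M ≤ δ² M² / 2`
by `hM`, hence `∑_h |T_h| ≥ δ² M² / 4`. If `X` is the number of `h` with `|T_h| ≥ δ² M / 8` then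
`∑_h |T_h| ≤ X M + M (δ² M / 8)`, so `X ≥ δ² M / 8`. -/
theorem weyl_diff (φ : ℕ → ℝ) (M : ℕ) (δ : ℝ) (hδ : 0 < δ) (hδ1 : δ ≤ 1 / 2)
    (hM : 2 / δ ^ 2 ≤ (M : ℝ)) (hS : δ * M ≤ ‖∑ n ∈ Finset.Icc 1 M, e (φ n)‖) :
    δ ^ 2 * M / 8 ≤ (((Finset.Icc 1 (M - 1)).filter (fun h =>
      δ ^ 2 * M / 8 ≤ ‖∑ n ∈ Finset.Icc 1 (M - h), e (φ (n + h) - φ n)‖)).card : ℝ) := by
  have hMpos : (0 : ℝ) < M := lt_of_lt_of_le (by positivity) hM
  have hM1 : 1 ≤ M := by exact_mod_cast hMpos
  set T : ℕ → ℂ := fun h => ∑ n ∈ Finset.Icc 1 (M - h), e (φ (n + h) - φ n) with hT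
  have hid := sq_norm_sum_eq (fun n => e (φ n)) (fun n => norm_e _) M
  have hTe : ∀ h, ∑ n ∈ Finset.Icc 1 (M - h), e (φ (n + h)) * (starRingEnd ℂ) (e (φ n)) = T h := by
    intro h
    refine Finset.sum_congr rfl fun n _ => ?_
    rw [← e_neg, ← e_add]
    congr 1
  simp only [hTe] at hid
  have hsplit : ∑ h ∈ Finset.Icc 1 M, T h = ∑ h ∈ Finset.Icc 1 (M - 1), T h := by
    obtain ⟨m, rfl⟩ : ∃ m, M = m + 1 := ⟨M - 1, by omega⟩
    rw [Finset.sum_Icc_succ_top (by omega)]
    have : T (m + 1) = 0 := by simp [hT]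
    rw [this, add_zero]; simp
  rw [hsplit] at hid
  have hle : (∑ h ∈ Finset.Icc 1 (M - 1), T h).re ≤ ∑ h ∈ Finset.Icc 1 (M - 1), ‖T h‖ :=
    (Complex.re_le_norm _).trans (norm_sum_le _ _)
  have hsq : (δ * M) ^ 2 ≤ ‖∑ n ∈ Finset.Icc 1 M, e (φ n)‖ ^ 2 :=
    pow_le_pow_left₀ (by positivity) hS 2
  rw [hid] at hsq
  have hM2 : (M : ℝ) ≤ δ ^ 2 * M ^ 2 / 2 := by
    have : 2 ≤ δ ^ 2 * M := by
      rw [div_le_iff₀ (by positivity)] at hM
      linarith
    nlinarith
  have hsum : δ ^ 2 * M ^ 2 / 4 ≤ ∑ h ∈ Finset.Icc 1 (M - 1), ‖T h‖ := by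
    nlinarith
  have hTM : ∀ h, ‖T h‖ ≤ M := by
    intro h
    refine (norm_sum_le _ _).trans ?_
    simp only [norm_e]
    rw [Finset.sum_const, nsmul_eq_mul, mul_one]
    simp
  rw [← Finset.sum_filter_add_sum_filter_not (Finset.Icc 1 (M - 1))
    (fun h => δ ^ 2 * M / 8 ≤ ‖T h‖)] at hsum
  have hb1 : ∑ h ∈ (Finset.Icc 1 (M - 1)).filter (fun h => δ ^ 2 * M / 8 ≤ ‖T h‖), ‖T h‖ ≤
      ((Finset.Icc 1 (M - 1)).filter (fun h => δ ^ 2 * M / 8 ≤ ‖T h‖)).card * (M : ℝ) := by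
    have := Finset.sum_le_card_nsmul ((Finset.Icc 1 (M - 1)).filter
      (fun h => δ ^ 2 * M / 8 ≤ ‖T h‖)) (fun h => ‖T h‖) (M : ℝ) (fun h _ => hTM h)
    rwa [nsmul_eq_mul] at this
  have hb2 : ∑ h ∈ (Finset.Icc 1 (M - 1)).filter (fun h => ¬ δ ^ 2 * M / 8 ≤ ‖T h‖), ‖T h‖ ≤
      (M : ℝ) * (δ ^ 2 * M / 8) := by
    have h1 := Finset.sum_le_card_nsmul ((Finset.Icc 1 (M - 1)).filter
      (fun h => ¬ δ ^ 2 * M / 8 ≤ ‖T h‖)) (fun h => ‖T h‖) (δ ^ 2 * M / 8) (fun h hh => by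
        rw [Finset.mem_filter] at hh
        exact (not_le.mp hh.2).le)
    rw [nsmul_eq_mul] at h1
    refine h1.trans (mul_le_mul_of_nonneg_right ?_ (by positivity))
    have h2 : ((Finset.Icc 1 (M - 1)).filter (fun h => ¬ δ ^ 2 * M / 8 ≤ ‖T h‖)).card ≤
        (Finset.Icc 1 (M - 1)).card := Finset.card_filter_le _ _
    have h3 : (Finset.Icc 1 (M - 1)).card ≤ M := by simp
    exact_mod_cast h2.trans h3
  set X : ℝ := (((Finset.Icc 1 (M - 1)).filter (fun h => δ ^ 2 * M / 8 ≤ ‖T h‖)).card : ℝ)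
  have hX : δ ^ 2 * M ^ 2 / 4 ≤ X * M + M * (δ ^ 2 * M / 8) := hsum.trans (add_le_add hb1 hb2)
  have : δ ^ 2 * M / 8 * M ≤ X * M := by nlinarith
  exact le_of_mul_le_mul_right this hMpos

/-- Sums over an arithmetic progression when all complete runs of length `L` are small. -/
theorem norm_sum_run_le (f : ℕ → ℂ) (hf : ∀ n, ‖f n‖ ≤ 1) (M q L : ℕ) (B : ℝ) (hB : 0 ≤ B)
    (hL : 1 ≤ L)
    (hrun : ∀ n₀ : ℕ, n₀ + q * L ≤ M → ‖∑ l ∈ Finset.Icc 1 L, f (n₀ + q * l)‖ ≤ B * L) :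
    ∀ m s : ℕ, s + q * m ≤ M → ‖∑ l ∈ Finset.Icc 1 m, f (s + q * l)‖ ≤ B * m + (L - 1) := by
  intro m
  induction m using Nat.strong_induction_on with
  | _ m ih =>
    intro s hs
    by_cases hm : m < L
    · have h1 : ‖∑ l ∈ Finset.Icc 1 m, f (s + q * l)‖ ≤ m := by
        refine (norm_sum_le _ _).trans ?_
        refine (Finset.sum_le_sum fun l _ => hf (s + q * l)).trans ?_
        simp
      have h2 : (m : ℝ) ≤ L - 1 := by
        have : m + 1 ≤ L := hm
        have : ((m + 1 : ℕ) : ℝ) ≤ L := by exact_mod_cast this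
        push_cast at this
        linarith
      have h3 : 0 ≤ B * m := by positivity
      linarith
    · obtain ⟨m', rfl⟩ : ∃ m', m = L + m' := ⟨m - L, by omega⟩
      have hsplit : ∑ l ∈ Finset.Icc 1 (L + m'), f (s + q * l) =
          ∑ l ∈ Finset.Icc 1 L, f (s + q * l) +
          ∑ l ∈ Finset.Icc 1 m', f ((s + q * L) + q * l) := by
        clear hs ih hm
        induction m' with
        | zero => simp
        | succ m' ih' =>
          rw [show L + (m' + 1) = (L + m') + 1 by ring, Finset.sum_Icc_succ_top (by omega), ih',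
            Finset.sum_Icc_succ_top (by omega), add_assoc]
          congr 3
          ring
      have h1 := hrun s (by nlinarith)
      have h2 := ih m' (by omega) (s + q * L) (by nlinarith)
      rw [hsplit]
      refine (norm_add_le _ _).trans ?_
      push_cast
      linarith

/-- Passing to a subprogression: if `φ = φ₁ + φ₂` on `[1, M]` where `e(φ₁)` is almost constant
on progressions of difference `q` and length `L`, a large sum of `e(φ)` gives a large sum of
`e(φ₂)` on such a progression.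

PROOF. Split `[1, M]` into residue classes mod `q` and each class into consecutive runs of length
exactly `L`, plus at most `q` incomplete runs of length `< L` (total `≤ q L ≤ δ M / 4` terms). So
some complete run `n₀ + q l`, `1 ≤ l ≤ L`, has `|∑_l e(φ(n₀ + q l))| ≥ (3/4) δ L`; replacing
`e(φ₁(n₀ + q l))` by its value at `l = 1` costs at most `(δ/4) L`. (One may take `n₀ ≥ 0` with
`n₀ + q L ≤ M`.) -/
theorem subprogression (φ₁ φ₂ : ℕ → ℝ) (M q L : ℕ) (δ : ℝ) (hδ : 0 < δ) (hδ1 : δ ≤ 1 / 2)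
    (hq : 1 ≤ q) (hL : 1 ≤ L) (hM : (q : ℝ) * L ≤ δ * M / 4)
    (hconst : ∀ n₀ l : ℕ, 1 ≤ l → l ≤ L → n₀ + q * l ≤ M →
      ‖e (φ₁ (n₀ + q * l)) - e (φ₁ (n₀ + q))‖ ≤ δ / 4)
    (hS : δ * M ≤ ‖∑ n ∈ Finset.Icc 1 M, e (φ₁ n + φ₂ n)‖) :
    ∃ n₀ : ℕ, n₀ + q * L ≤ M ∧
      δ / 2 * L ≤ ‖∑ l ∈ Finset.Icc 1 L, e (φ₂ (n₀ + q * l))‖ := by
  by_contra hcon
  push Not at hcon
  set f : ℕ → ℂ := fun n => e (φ₁ n + φ₂ n) with hf
  have hf1 : ∀ n, ‖f n‖ = 1 := fun n => norm_e _
  -- complete runs are small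
  have hrun : ∀ n₀ : ℕ, n₀ + q * L ≤ M →
      ‖∑ l ∈ Finset.Icc 1 L, f (n₀ + q * l)‖ ≤ (3 / 4 * δ) * L := by
    intro n₀ hn
    have hdec : ∑ l ∈ Finset.Icc 1 L, f (n₀ + q * l) =
        e (φ₁ (n₀ + q)) * ∑ l ∈ Finset.Icc 1 L, e (φ₂ (n₀ + q * l)) +
        ∑ l ∈ Finset.Icc 1 L, (e (φ₁ (n₀ + q * l)) - e (φ₁ (n₀ + q))) * e (φ₂ (n₀ + q * l)) := by
      rw [Finset.mul_sum, ← Finset.sum_add_distrib]
      refine Finset.sum_congr rfl fun l _ => ?_
      rw [hf]; dsimp only
      rw [e_add]; ring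
    have h1 : ‖∑ l ∈ Finset.Icc 1 L,
        (e (φ₁ (n₀ + q * l)) - e (φ₁ (n₀ + q))) * e (φ₂ (n₀ + q * l))‖ ≤ δ / 4 * L := by
      refine (norm_sum_le _ _).trans ?_
      have h2 : ∀ l ∈ Finset.Icc 1 L,
          ‖(e (φ₁ (n₀ + q * l)) - e (φ₁ (n₀ + q))) * e (φ₂ (n₀ + q * l))‖ ≤ δ / 4 := by
        intro l hl
        rw [Finset.mem_Icc] at hl
        rw [norm_mul, norm_e, mul_one]
        refine hconst n₀ l hl.1 hl.2 (le_trans ?_ hn)
        exact Nat.add_le_add_left (Nat.mul_le_mul_left q hl.2) n₀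
      refine (Finset.sum_le_sum h2).trans ?_
      rw [Finset.sum_const, nsmul_eq_mul]
      simp; linarith
    rw [hdec]
    refine (norm_add_le _ _).trans ?_
    rw [norm_mul, norm_e, one_mul]
    have := hcon n₀ hn
    linarith
  have hprog := norm_sum_run_le f (fun n => (hf1 n).le) M q L (3 / 4 * δ) (by positivity) hL hrun
  -- split into residue classes
  have hclass : ∑ n ∈ Finset.Icc 1 M, f n = ∑ s ∈ Finset.range q,
      ∑ n ∈ (Finset.Icc 1 M).filter (fun n => n % q = s), f n := by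
    rw [Finset.sum_fiberwise_of_maps_to]
    intro n _
    exact Finset.mem_range.mpr (Nat.mod_lt _ (by omega))
  have hqL : q * L ≤ M := by
    have h1 : (q : ℝ) * L ≤ M := by
      have : δ * M / 4 ≤ M := by
        have : (0 : ℝ) ≤ M := Nat.cast_nonneg M
        nlinarith
      linarith
    exact_mod_cast h1
  have hqM : q ≤ M := le_trans (Nat.le_mul_of_pos_right q hL) hqL
  -- each class
  have hone : ∀ s, s < q → ∑ n ∈ (Finset.Icc 1 M).filter (fun n => n % q = s), f n =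
      (if s = 0 then 0 else f s) + ∑ l ∈ Finset.Icc 1 ((M - s) / q), f (s + q * l) := by
    intro s hs
    have himg : (Finset.Icc 1 M).filter (fun n => n % q = s) =
        (if s = 0 then ∅ else {s}) ∪
          (Finset.Icc 1 ((M - s) / q)).image (fun l => s + q * l) := by
      ext n
      simp only [Finset.mem_filter, Finset.mem_Icc, Finset.mem_union, Finset.mem_image]
      constructor
      · rintro ⟨⟨hn1, hn2⟩, hn3⟩
        have hdm := Nat.div_add_mod n q
        rcases Nat.eq_zero_or_pos (n / q) with h0 | h0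
        · left
          have : n = s := by
            rw [h0, mul_zero, zero_add, hn3] at hdm
            exact hdm.symm
          have hs0 : s ≠ 0 := by omega
          rw [if_neg hs0]
          simp [this]
        · right
          refine ⟨n / q, ⟨h0, ?_⟩, ?_⟩
          · rw [Nat.le_div_iff_mul_le (by omega)]
            rw [hn3] at hdm
            have : n / q * q = q * (n / q) := mul_comm _ _
            omega
          · rw [hn3] at hdm; omega
      · rintro (h | ⟨l, ⟨hl1, hl2⟩, rfl⟩)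
        · split_ifs at h with h0
          · simp at h
          · rw [Finset.mem_singleton] at h
            subst h
            refine ⟨⟨by omega, by omega⟩, Nat.mod_eq_of_lt hs⟩
        · rw [Nat.le_div_iff_mul_le (by omega)] at hl2
          have hcomm : l * q = q * l := mul_comm _ _
          have hlq : q ≤ q * l := Nat.le_mul_of_pos_right q hl1
          refine ⟨⟨by omega, by omega⟩, ?_⟩
          rw [Nat.add_mul_mod_self_left]
          exact Nat.mod_eq_of_lt hs
    rw [himg, Finset.sum_union, Finset.sum_image]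
    · congr 1
      split_ifs <;> simp
    · intro a _ b _ hab
      dsimp only at hab
      have : q * a = q * b := by omega
      exact Nat.eq_of_mul_eq_mul_left (by omega) this
    · rw [Finset.disjoint_left]
      intro n hn hn'
      rw [Finset.mem_image] at hn'
      obtain ⟨l, hl, rfl⟩ := hn'
      rw [Finset.mem_Icc] at hl
      have hlq : q ≤ q * l := Nat.le_mul_of_pos_right q hl.1
      split_ifs at hn with h0
      · simp at hn
      · rw [Finset.mem_singleton] at hn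
        omega
  have hbound : ∀ s ∈ Finset.range q,
      ‖∑ n ∈ (Finset.Icc 1 M).filter (fun n => n % q = s), f n‖ ≤
        3 / 4 * δ * (M / q) + (if s = 0 then (L : ℝ) - 1 else L) := by
    intro s hs
    rw [Finset.mem_range] at hs
    rw [hone s hs]
    refine (norm_add_le _ _).trans ?_
    have hdiv := Nat.div_mul_le_self (M - s) q
    have h1 := hprog ((M - s) / q) s (by
      have : q * ((M - s) / q) = (M - s) / q * q := mul_comm _ _
      omega)
    have h2 : (((M - s) / q : ℕ) : ℝ) ≤ M / q := by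
      rw [le_div_iff₀ (by exact_mod_cast (by omega : 0 < q))]
      have : (M - s) / q * q ≤ M := hdiv.trans (Nat.sub_le _ _)
      exact_mod_cast this
    have h3 : 3 / 4 * δ * (((M - s) / q : ℕ) : ℝ) ≤ 3 / 4 * δ * (M / q) :=
      mul_le_mul_of_nonneg_left h2 (by positivity)
    split_ifs with h0
    · rw [norm_zero]; linarith
    · rw [hf1]; linarith
  have htotal : ‖∑ n ∈ Finset.Icc 1 M, f n‖ ≤ 3 / 4 * δ * M + q * L - 1 := by
    rw [hclass]
    refine (norm_sum_le _ _).trans ((Finset.sum_le_sum hbound).trans ?_)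
    rw [Finset.sum_add_distrib, Finset.sum_const, Finset.card_range, nsmul_eq_mul]
    have h1 : ∑ s ∈ Finset.range q, (if s = 0 then (L : ℝ) - 1 else L) = q * L - 1 := by
      obtain ⟨q', rfl⟩ : ∃ q', q = q' + 1 := ⟨q - 1, by omega⟩
      rw [Finset.sum_range_succ']
      simp
      ring
    rw [h1]
    have hq0 : (q : ℝ) ≠ 0 := by
      have : q ≠ 0 := by omega
      exact_mod_cast this
    have : (q : ℝ) * (3 / 4 * δ * (M / q)) = 3 / 4 * δ * M := by
      field_simp
    rw [this]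
    linarith
  have := hS.trans htotal
  linarith

end Vale.Agent.P042.UB
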