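import Vale.Agent.Lib.P042.UB.Weyl.Rec
import Vale.Agent.Lib.P042.UB.Weyl.Diff

set_option autoImplicit false

namespace Vale.Agent.P042.UB

open Polynomial

namespace WeylInv

theorem nint_nonneg' (t : ℝ) : 0 ≤ nint t := abs_nonneg _

theorem nint_le_half' (t : ℝ) : nint t ≤ 1 / 2 := abs_sub_round t

theorem nint_le_abs_sub' (t : ℝ) (z : ℤ) : nint t ≤ |t - z| := round_le t z

theorem nint_add_le' (s t : ℝ) : nint (s + t) ≤ nint s + nint t := by
  have h := nint_le_abs_sub' (s + t) (round s + round t)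
  refine h.trans ?_
  push_cast
  have : s + t - ((round s : ℝ) + (round t : ℝ)) = (s - round s) + (t - round t) := by ring
  rw [this]
  exact abs_add_le _ _

theorem nint_int_mul_le' (m : ℤ) (t : ℝ) : nint ((m : ℝ) * t) ≤ |(m : ℝ)| * nint t := by
  have h := nint_le_abs_sub' ((m : ℝ) * t) (m * round t)
  refine h.trans (le_of_eq ?_)
  push_cast
  rw [← mul_sub, abs_mul]
  rfl

theorem nint_nat_mul_le' (m : ℕ) (t : ℝ) : nint ((m : ℝ) * t) ≤ (m : ℝ) * nint t := by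
  have h := nint_int_mul_le' (m : ℤ) t
  simpa using h

theorem nint_sum_le' {ι : Type*} (s : Finset ι) (f : ι → ℝ) :
    nint (∑ i ∈ s, f i) ≤ ∑ i ∈ s, nint (f i) := by
  classical
  induction s using Finset.induction_on with
  | empty => simp [nint]
  | insert a s ha ih =>
    rw [Finset.sum_insert ha, Finset.sum_insert ha]
    exact (nint_add_le' _ _).trans (by linarith)

theorem nat_le_pow' (c : ℕ) {P : ℝ} (hP : 2 ≤ P) : (c : ℝ) ≤ P ^ c := by
  calc (c : ℝ) ≤ (2 : ℝ) ^ c := by exact_mod_cast Nat.lt_two_pow_self.le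
    _ ≤ P ^ c := pow_le_pow_left₀ (by norm_num) hP c

theorem norm_e_sub_one_ge' (t : ℝ) : 4 * nint t ≤ ‖e t - 1‖ := by
  set s : ℝ := t - round t with hs
  have h1 : e t = e s := by
    have : t = s + (round t : ℤ) := by rw [hs]; ring
    conv_lhs => rw [this]
    rw [e_add_int]
  have hs2 : |s| ≤ 1 / 2 := abs_sub_round t
  have h2 : ‖e s - 1‖ = ‖2 * Real.sin (2 * Real.pi * s / 2)‖ := by
    rw [← Complex.norm_exp_I_mul_ofReal_sub_one, e, mul_comm]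
  have h3 : 2 / Real.pi * |Real.pi * s| ≤ |Real.sin (Real.pi * s)| := by
    apply Real.mul_abs_le_abs_sin
    rw [abs_mul, abs_of_pos Real.pi_pos]
    nlinarith [Real.pi_pos]
  have h4 : 2 / Real.pi * |Real.pi * s| = 2 * |s| := by
    rw [abs_mul, abs_of_pos Real.pi_pos]
    field_simp
  rw [h1, h2, Real.norm_eq_abs, abs_mul, abs_of_pos (by norm_num : (0 : ℝ) < 2)]
  have h5 : 2 * Real.pi * s / 2 = Real.pi * s := by ring
  rw [h5]
  have h6 : nint t = |s| := rfl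
  rw [h6]
  linarith

theorem sum_Icc_shift_sub (f : ℕ → ℂ) (M : ℕ) :
    ∑ n ∈ Finset.Icc 1 M, (f (n + 1) - f n) = f (M + 1) - f 1 := by
  induction M with
  | zero => simp
  | succ m ih =>
    rw [Finset.sum_Icc_succ_top (by omega), ih]
    ring

theorem geom_bound (γ c : ℝ) (M : ℕ) :
    4 * nint γ * ‖∑ n ∈ Finset.Icc 1 M, e (γ * n + c)‖ ≤ 2 := by
  have h1 : (e γ - 1) * ∑ n ∈ Finset.Icc 1 M, e (γ * n + c) =
      e (γ * (M + 1 : ℕ) + c) - e (γ * (1 : ℕ) + c) := by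
    rw [← sum_Icc_shift_sub (fun n => e (γ * (n : ℕ) + c)) M, Finset.mul_sum]
    refine Finset.sum_congr rfl fun n _ => ?_
    rw [sub_mul, one_mul, ← e_add]
    congr 2
    push_cast
    ring
  have h2 : ‖e γ - 1‖ * ‖∑ n ∈ Finset.Icc 1 M, e (γ * n + c)‖ ≤ 2 := by
    rw [← norm_mul, h1]
    refine (norm_sub_le _ _).trans ?_
    rw [norm_e, norm_e]
    norm_num
  calc 4 * nint γ * ‖∑ n ∈ Finset.Icc 1 M, e (γ * n + c)‖
      ≤ ‖e γ - 1‖ * ‖∑ n ∈ Finset.Icc 1 M, e (γ * n + c)‖ :=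
        mul_le_mul_of_nonneg_right (norm_e_sub_one_ge' γ) (norm_nonneg _)
    _ ≤ 2 := h2

/-- The statement of the inverse theorem in degree `≤ k` with exponent `C`. -/
def WI (k C : ℕ) : Prop := ∀ (g : ℝ[X]) (M : ℕ) (P : ℝ),
    g.natDegree ≤ k → 2 ≤ P → 1 ≤ M →
    (M : ℝ) ≤ P * ‖∑ n ∈ Finset.Icc 1 M, e (g.eval (n : ℝ))‖ →
    ∃ q : ℕ, 1 ≤ q ∧ (q : ℝ) ≤ P ^ C ∧
      ∀ j : ℕ, 1 ≤ j → j ≤ k → nint ((q : ℝ) * g.coeff j) ≤ P ^ C / (M : ℝ) ^ j

theorem WI_one : WI 1 1 := by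
  intro g M P hg hP hM hS
  refine ⟨1, le_rfl, ?_, ?_⟩
  · rw [Nat.cast_one, pow_one]
    linarith
  · intro j h1 h2
    have hj : j = 1 := by omega
    subst hj
    rw [Nat.cast_one, one_mul, pow_one, pow_one]
    have hM' : (0 : ℝ) < M := by exact_mod_cast hM
    have hg2 : ∀ n : ℕ, g.eval (n : ℝ) = g.coeff 1 * n + g.coeff 0 := by
      intro n
      rw [eval_eq_sum_range' (n := 2) (by omega), Finset.sum_range_succ, Finset.sum_range_one]
      ring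
    simp only [hg2] at hS
    have h := geom_bound (g.coeff 1) (g.coeff 0) M
    rw [le_div_iff₀ hM']
    have hn := nint_nonneg' (g.coeff 1)
    have hP0 : 0 < P := by linarith
    calc nint (g.coeff 1) * M ≤ nint (g.coeff 1) *
          (P * ‖∑ n ∈ Finset.Icc 1 M, e (g.coeff 1 * n + g.coeff 0)‖) :=
          mul_le_mul_of_nonneg_left hS hn
      _ = P * (4 * nint (g.coeff 1) *
          ‖∑ n ∈ Finset.Icc 1 M, e (g.coeff 1 * n + g.coeff 0)‖) / 4 := by ring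
      _ ≤ P * 2 / 4 := by
          have := mul_le_mul_of_nonneg_left h hP0.le
          linarith
      _ ≤ P := by linarith

theorem coeff_taylor_top (k : ℕ) (g : ℝ[X]) (hg : g.natDegree ≤ k + 1) (h : ℝ) :
    (taylor h g).coeff (k + 1) = g.coeff (k + 1) := by
  rw [taylor_coeff]
  have h1 : (hasseDeriv (k + 1) g).natDegree < 1 := by
    have := natDegree_hasseDeriv_le g (k + 1)
    omega
  rw [eval_eq_sum_range' h1, Finset.sum_range_one, hasseDeriv_coeff]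
  simp

theorem coeff_taylor_sub (k : ℕ) (g : ℝ[X]) (hg : g.natDegree ≤ k + 1) (h : ℝ) :
    (taylor h g).coeff k = g.coeff k + (k + 1) * h * g.coeff (k + 1) := by
  rw [taylor_coeff]
  have h1 : (hasseDeriv k g).natDegree < 2 := by
    have := natDegree_hasseDeriv_le g k
    omega
  rw [eval_eq_sum_range' h1, Finset.sum_range_succ, Finset.sum_range_one, hasseDeriv_coeff,
    hasseDeriv_coeff]
  have h2 : (1 + k).choose k = k + 1 := by
    rw [add_comm, Nat.choose_succ_self_right]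
  rw [h2]
  simp only [zero_add, Nat.choose_self, Nat.cast_one, one_mul, pow_zero, mul_one, pow_one]
  rw [add_comm 1 k]
  push_cast
  ring

theorem natDegree_diff_le (k : ℕ) (g : ℝ[X]) (hg : g.natDegree ≤ k + 1) (h : ℝ) :
    (taylor h g - g).natDegree ≤ k := by
  rw [natDegree_le_iff_coeff_eq_zero]
  intro N hN
  rw [coeff_sub]
  rcases Nat.lt_or_ge (k + 1) N with h1 | h1
  · rw [coeff_eq_zero_of_natDegree_lt (by rw [natDegree_taylor]; omega),
      coeff_eq_zero_of_natDegree_lt (by omega), sub_zero]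
  · have : N = k + 1 := by omega
    rw [this, coeff_taylor_top k g hg, sub_self]

theorem leading (k C' : ℕ) (hk : 1 ≤ k) (IH : WI k C') (g : ℝ[X]) (M : ℕ) (P : ℝ)
    (hg : g.natDegree ≤ k + 1) (hP : 2 ≤ P)
    (hM : P ^ (10 * C' + 5 * k + 11) ≤ (M : ℝ))
    (hS : (M : ℝ) ≤ P * ‖∑ n ∈ Finset.Icc 1 M, e (g.eval (n : ℝ))‖) :
    ∃ q : ℕ, 1 ≤ q ∧ (q : ℝ) ≤ P ^ (15 * C' + 6 * k + 15) ∧
      nint ((q : ℝ) * g.coeff (k + 1)) ≤ P ^ (15 * C' + 6 * k + 15) / (M : ℝ) ^ (k + 1) := by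
  have hP0 : 0 < P := by linarith
  have hP1 : 1 ≤ P := by linarith
  have hM0 : (0 : ℝ) < M := lt_of_lt_of_le (by positivity) hM
  have hM1 : 1 ≤ M := by exact_mod_cast hM0
  have hM1' : (1 : ℝ) ≤ M := by exact_mod_cast hM1
  have h8 : 8 * P ^ 2 ≤ P ^ 5 := by
    have : (8 : ℝ) ≤ P ^ 3 := by
      calc (8 : ℝ) = 2 ^ 3 := by norm_num
        _ ≤ P ^ 3 := pow_le_pow_left₀ (by norm_num) hP 3
    calc 8 * P ^ 2 ≤ P ^ 3 * P ^ 2 := mul_le_mul_of_nonneg_right this (by positivity)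
      _ = P ^ 5 := by ring
  set δ : ℝ := 1 / P with hδ
  have hδ0 : 0 < δ := by positivity
  have hδ1 : δ ≤ 1 / 2 := one_div_le_one_div_of_le (by norm_num) hP
  have hδM : 2 / δ ^ 2 ≤ (M : ℝ) := by
    have h1 : 2 / δ ^ 2 = 2 * P ^ 2 := by
      rw [hδ]
      field_simp
    rw [h1]
    calc 2 * P ^ 2 ≤ 8 * P ^ 2 := by nlinarith [sq_nonneg P]
      _ ≤ P ^ 5 := h8
      _ ≤ P ^ (10 * C' + 5 * k + 11) := pow_le_pow_right₀ hP1 (by omega)
      _ ≤ M := hM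
  have hS' : δ * M ≤ ‖∑ n ∈ Finset.Icc 1 M, e ((fun n : ℕ => g.eval (n : ℝ)) n)‖ := by
    rw [hδ, one_div, inv_mul_le_iff₀ hP0]
    exact hS
  have hT := weyl_diff (fun n : ℕ => g.eval (n : ℝ)) M δ hδ0 hδ1 hδM hS'
  set T : Finset ℕ := (Finset.Icc 1 (M - 1)).filter (fun h =>
      δ ^ 2 * M / 8 ≤ ‖∑ n ∈ Finset.Icc 1 (M - h), e ((fun n : ℕ => g.eval (n : ℝ)) (n + h) -
        (fun n : ℕ => g.eval (n : ℝ)) n)‖) with hTdef
  have hδ8 : δ ^ 2 * M / 8 = M / (8 * P ^ 2) := by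
    rw [hδ]
    field_simp
  rw [hδ8] at hT
  -- the induction hypothesis for each difference
  have hind : ∀ h ∈ T, ∃ q : ℕ, 1 ≤ q ∧ (q : ℝ) ≤ P ^ (5 * C') ∧
      nint ((q : ℝ) * ((k + 1) * h * g.coeff (k + 1))) ≤ P ^ (5 * C' + 5 * k) / (M : ℝ) ^ k := by
    intro h hh
    rw [hTdef, Finset.mem_filter, Finset.mem_Icc] at hh
    obtain ⟨⟨hh1, hh2⟩, hh3⟩ := hh
    rw [hδ8] at hh3
    have hMh : 1 ≤ M - h := by omega
    have hMh' : (0 : ℝ) < ((M - h : ℕ) : ℝ) := by exact_mod_cast hMh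
    have hMhle : ((M - h : ℕ) : ℝ) ≤ M := by exact_mod_cast Nat.sub_le M h
    have hsum : ∑ n ∈ Finset.Icc 1 (M - h), e ((fun n : ℕ => g.eval (n : ℝ)) (n + h) -
        (fun n : ℕ => g.eval (n : ℝ)) n) =
        ∑ n ∈ Finset.Icc 1 (M - h), e ((taylor (h : ℝ) g - g).eval (n : ℝ)) := by
      refine Finset.sum_congr rfl fun n _ => ?_
      rw [eval_sub, taylor_eval]
      push_cast
      rfl
    rw [hsum] at hh3
    have hP8 : (2 : ℝ) ≤ 8 * P ^ 2 := by nlinarith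
    have hlow : (M : ℝ) ≤ 8 * P ^ 2 * ‖∑ n ∈ Finset.Icc 1 (M - h),
        e ((taylor (h : ℝ) g - g).eval (n : ℝ))‖ := by
      rw [div_le_iff₀ (by positivity)] at hh3
      linarith
    obtain ⟨q, hq1, hq2, hq3⟩ := IH (taylor (h : ℝ) g - g) (M - h) (8 * P ^ 2)
      (natDegree_diff_le k g hg h) hP8 hMh (hMhle.trans hlow)
    refine ⟨q, hq1, ?_, ?_⟩
    · calc (q : ℝ) ≤ (8 * P ^ 2) ^ C' := hq2
        _ ≤ (P ^ 5) ^ C' := pow_le_pow_left₀ (by positivity) h8 C'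
        _ = P ^ (5 * C') := by rw [← pow_mul]
    · have h1 := hq3 k hk le_rfl
      rw [coeff_sub, coeff_taylor_sub k g hg, add_sub_cancel_left] at h1
      refine h1.trans ?_
      have h2 : ‖∑ n ∈ Finset.Icc 1 (M - h), e ((taylor (h : ℝ) g - g).eval (n : ℝ))‖ ≤
          ((M - h : ℕ) : ℝ) := by
        refine (norm_sum_le _ _).trans ?_
        simp only [norm_e]
        simp
      have h3 : (M : ℝ) ≤ P ^ 5 * ((M - h : ℕ) : ℝ) := by
        calc (M : ℝ) ≤ 8 * P ^ 2 * ‖∑ n ∈ Finset.Icc 1 (M - h),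
              e ((taylor (h : ℝ) g - g).eval (n : ℝ))‖ := hlow
          _ ≤ P ^ 5 * ((M - h : ℕ) : ℝ) := by gcongr
      rw [div_le_div_iff₀ (by positivity) (by positivity)]
      calc (8 * P ^ 2) ^ C' * (M : ℝ) ^ k ≤ (P ^ 5) ^ C' * (P ^ 5 * ((M - h : ℕ) : ℝ)) ^ k := by
            gcongr
        _ = P ^ (5 * C' + 5 * k) * ((M - h : ℕ) : ℝ) ^ k := by
            rw [mul_pow, ← pow_mul, ← pow_mul, pow_add]
            ring
  choose! Q hQ using hind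
  -- pigeonhole
  set t : Finset ℕ := Finset.Icc 1 ⌊P ^ (5 * C')⌋₊ with ht
  have hmaps : ∀ h ∈ T, Q h ∈ t := by
    intro h hh
    rw [ht, Finset.mem_Icc]
    exact ⟨(hQ h hh).1, Nat.le_floor (hQ h hh).2.1⟩
  have hPC : (1 : ℝ) ≤ P ^ (5 * C') := one_le_pow₀ hP1
  have htne : t.Nonempty := by
    rw [ht, Finset.nonempty_Icc]
    exact Nat.le_floor (by exact_mod_cast hPC)
  have htcard : (t.card : ℝ) ≤ P ^ (5 * C') := by
    rw [ht, Nat.card_Icc, Nat.add_sub_cancel]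
    exact Nat.floor_le (by positivity)
  have hb : t.card • ((M : ℝ) / P ^ (5 * C' + 5)) ≤ (T.card : ℝ) := by
    rw [nsmul_eq_mul]
    calc (t.card : ℝ) * ((M : ℝ) / P ^ (5 * C' + 5)) ≤
          P ^ (5 * C') * ((M : ℝ) / P ^ (5 * C' + 5)) :=
          mul_le_mul_of_nonneg_right htcard (by positivity)
      _ = (M : ℝ) / P ^ 5 := by
          rw [pow_add]
          field_simp
      _ ≤ (M : ℝ) / (8 * P ^ 2) := by gcongr
      _ ≤ T.card := hT
  obtain ⟨q₀, hq₀, hcard⟩ := Finset.exists_le_card_fiber_of_nsmul_le_card_of_maps_to hmaps htne hb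
  rw [ht, Finset.mem_Icc] at hq₀
  have hq₀' : (q₀ : ℝ) ≤ P ^ (5 * C') := by
    calc (q₀ : ℝ) ≤ (⌊P ^ (5 * C')⌋₊ : ℝ) := by exact_mod_cast hq₀.2
      _ ≤ _ := Nat.floor_le (by positivity)
  have hεη : P ^ (5 * C' + 5 * k) / (M : ℝ) ^ k < 1 / P ^ (5 * C' + 5) / 24 := by
    rw [div_div, div_lt_div_iff₀ (by positivity) (by positivity), one_mul]
    calc P ^ (5 * C' + 5 * k) * (P ^ (5 * C' + 5) * 24)
        < P ^ (5 * C' + 5 * k) * (P ^ (5 * C' + 5) * P ^ 6) := by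
          have : (24 : ℝ) < P ^ 6 := by
            calc (24 : ℝ) < 2 ^ 6 := by norm_num
              _ ≤ P ^ 6 := pow_le_pow_left₀ (by norm_num) hP 6
          gcongr
      _ = P ^ (10 * C' + 5 * k + 11) := by
          rw [← pow_add, ← pow_add]
          congr 1
          omega
      _ ≤ M := hM
      _ = (M : ℝ) ^ 1 := (pow_one _).symm
      _ ≤ (M : ℝ) ^ k := pow_le_pow_right₀ hM1' hk
  obtain ⟨q₂, h1q₂, h2q₂, h3q₂⟩ := recurrence ((q₀ : ℝ) * ((k + 1) * g.coeff (k + 1)))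
    (1 / P ^ (5 * C' + 5)) (P ^ (5 * C' + 5 * k) / (M : ℝ) ^ k) M (T.filter (fun x => Q x = q₀))
    hM1 (fun x hx => by
      rw [Finset.mem_filter, hTdef, Finset.mem_filter, Finset.mem_Icc] at hx
      rw [Finset.mem_Icc]
      omega) (by positivity)
    (by
      rw [div_le_one (by positivity)]
      exact one_le_pow₀ hP1)
    (by
      rw [one_div, inv_mul_eq_div]
      exact hcard)
    (by positivity) hεη
    (fun h hh => by
      rw [Finset.mem_filter] at hh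
      have h1 := (hQ h hh.1).2.2
      rw [hh.2] at h1
      have h2 : (h : ℝ) * ((q₀ : ℝ) * ((k + 1) * g.coeff (k + 1))) =
          (q₀ : ℝ) * ((k + 1) * h * g.coeff (k + 1)) := by ring
      rw [h2]
      exact h1)
  have h12 : (12 : ℝ) ≤ P ^ 4 := by
    calc (12 : ℝ) ≤ 2 ^ 4 := by norm_num
      _ ≤ P ^ 4 := pow_le_pow_left₀ (by norm_num) hP 4
  refine ⟨q₂ * q₀ * (k + 1), ?_, ?_, ?_⟩
  · have : 0 < q₂ * q₀ * (k + 1) := by
      have := hq₀.1
      positivity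
    omega
  · push_cast
    rw [div_div_eq_mul_div, div_one] at h2q₂
    have hk1 : ((k : ℝ) + 1) ≤ P ^ (k + 1) := by
      have := nat_le_pow' (k + 1) hP
      push_cast at this
      exact this
    calc (q₂ : ℝ) * q₀ * (k + 1) ≤ (12 * P ^ (5 * C' + 5)) * P ^ (5 * C') * P ^ (k + 1) := by
          gcongr
      _ ≤ (P ^ 4 * P ^ (5 * C' + 5)) * P ^ (5 * C') * P ^ (k + 1) := by gcongr
      _ = P ^ (10 * C' + k + 10) := by
          rw [← pow_add, ← pow_add, ← pow_add]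
          congr 1
          omega
      _ ≤ P ^ (15 * C' + 6 * k + 15) := pow_le_pow_right₀ hP1 (by omega)
  · have h1 : ((q₂ * q₀ * (k + 1) : ℕ) : ℝ) * g.coeff (k + 1) =
        (q₂ : ℝ) * ((q₀ : ℝ) * ((k + 1) * g.coeff (k + 1))) := by
      push_cast
      ring
    rw [h1]
    refine h3q₂.trans ?_
    have h2 : 12 * (P ^ (5 * C' + 5 * k) / (M : ℝ) ^ k) / ((1 / P ^ (5 * C' + 5)) ^ 2 * M) =
        12 * P ^ (5 * C' + 5 * k) * (P ^ (5 * C' + 5)) ^ 2 / (M : ℝ) ^ (k + 1) := by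
      rw [pow_succ (M : ℝ) k]
      field_simp
    rw [h2]
    gcongr
    calc 12 * P ^ (5 * C' + 5 * k) * (P ^ (5 * C' + 5)) ^ 2
        ≤ P ^ 4 * P ^ (5 * C' + 5 * k) * (P ^ (5 * C' + 5)) ^ 2 := by gcongr
      _ = P ^ (15 * C' + 5 * k + 14) := by
          rw [← pow_mul, ← pow_add, ← pow_add]
          congr 1
          omega
      _ ≤ P ^ (15 * C' + 6 * k + 15) := pow_le_pow_right₀ hP1 (by omega)

theorem reduce (k D S : ℕ) (hSD : S = D + k + 7) (g : ℝ[X]) (M : ℕ) (P : ℝ) (hP : 2 ≤ P)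
    (q : ℕ) (hq : 1 ≤ q) (hqD : (q : ℝ) ≤ P ^ D)
    (hnint : nint ((q : ℝ) * g.coeff (k + 1)) ≤ P ^ D / (M : ℝ) ^ (k + 1))
    (hM : P ^ (D + S) ≤ (M : ℝ))
    (hS : (M : ℝ) ≤ P * ‖∑ n ∈ Finset.Icc 1 M, e (g.eval (n : ℝ))‖) :
    ∃ n₀ L : ℕ, 1 ≤ L ∧ n₀ + q * L ≤ M ∧ (M : ℝ) ≤ P ^ (D + S + 1) * L ∧
      (L : ℝ) ≤ 2 * P * ‖∑ l ∈ Finset.Icc 1 L,
        e ((g - C (g.coeff (k + 1)) * X ^ (k + 1)).eval (((n₀ + q * l : ℕ)) : ℝ))‖ := by
  have hP0 : 0 < P := by linarith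
  have hP1 : 1 ≤ P := by linarith
  have hM0 : (0 : ℝ) < M := lt_of_lt_of_le (by positivity) hM
  have hM1 : 1 ≤ M := by exact_mod_cast hM0
  have hq0 : (0 : ℝ) < q := by exact_mod_cast hq
  set δ : ℝ := 1 / P with hδ
  have hδ0 : 0 < δ := by positivity
  have hδ1 : δ ≤ 1 / 2 := one_div_le_one_div_of_le (by norm_num) hP
  have hquot : 1 ≤ (M : ℝ) / (q * P ^ S) := by
    rw [le_div_iff₀ (by positivity), one_mul]
    calc (q : ℝ) * P ^ S ≤ P ^ D * P ^ S := by gcongr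
      _ = P ^ (D + S) := (pow_add _ _ _).symm
      _ ≤ M := hM
  set L : ℕ := ⌊(M : ℝ) / (q * P ^ S)⌋₊ with hL
  have hL1 : 1 ≤ L := Nat.le_floor (by exact_mod_cast hquot)
  have hL1' : (1 : ℝ) ≤ L := by exact_mod_cast hL1
  have hLle : (L : ℝ) ≤ (M : ℝ) / (q * P ^ S) := Nat.floor_le (by positivity)
  have hqL : (q : ℝ) * L ≤ M / P ^ S := by
    calc (q : ℝ) * L ≤ q * ((M : ℝ) / (q * P ^ S)) := by gcongr
      _ = M / P ^ S := by field_simp
  have hPS : 4 * P ≤ P ^ S := by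
    calc 4 * P ≤ P ^ 2 * P := by nlinarith
      _ = P ^ 3 := by ring
      _ ≤ P ^ S := pow_le_pow_right₀ hP1 (by omega)
  have hqL2 : (q : ℝ) * L ≤ δ * M / 4 := by
    calc (q : ℝ) * L ≤ M / P ^ S := hqL
      _ ≤ M / (4 * P) := by gcongr
      _ = δ * M / 4 := by
          rw [hδ]
          field_simp
  have hML : (M : ℝ) ≤ P ^ (D + S + 1) * L := by
    have h1 : (M : ℝ) / (q * P ^ S) < L + 1 := Nat.lt_floor_add_one _
    rw [div_lt_iff₀ (by positivity)] at h1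
    calc (M : ℝ) ≤ (L + 1) * (q * P ^ S) := h1.le
      _ ≤ (2 * L) * (P ^ D * P ^ S) := by
          gcongr
          linarith
      _ ≤ (P * L) * (P ^ D * P ^ S) := by gcongr
      _ = P ^ (D + S + 1) * L := by ring
  set ρ : ℝ := (q : ℝ) * g.coeff (k + 1) - round ((q : ℝ) * g.coeff (k + 1)) with hρ
  have hρ1 : |ρ| ≤ P ^ D / (M : ℝ) ^ (k + 1) := hnint
  have hconst : ∀ n₀ l : ℕ, 1 ≤ l → l ≤ L → n₀ + q * l ≤ M →
      ‖e ((fun n : ℕ => g.coeff (k + 1) * (n : ℝ) ^ (k + 1)) (n₀ + q * l)) -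
        e ((fun n : ℕ => g.coeff (k + 1) * (n : ℝ) ^ (k + 1)) (n₀ + q))‖ ≤ δ / 4 := by
    intro n₀ l hl1 hl2 hl3
    beta_reduce
    -- the integer part
    obtain ⟨s, hs⟩ : ∃ s : ℤ, ((n₀ + q * l : ℕ) : ℤ) ^ (k + 1) - ((n₀ + q : ℕ) : ℤ) ^ (k + 1) =
        q * s := by
      have h1 : (q : ℤ) ∣ ((n₀ + q * l : ℕ) : ℤ) - ((n₀ + q : ℕ) : ℤ) :=
        ⟨(l : ℤ) - 1, by push_cast; ring⟩
      exact h1.trans (sub_dvd_pow_sub_pow _ _ _)
    have hs' : (((n₀ + q * l : ℕ)) : ℝ) ^ (k + 1) - (((n₀ + q : ℕ)) : ℝ) ^ (k + 1) =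
        (q : ℝ) * s := by exact_mod_cast hs
    have hsplit : g.coeff (k + 1) * (((n₀ + q * l : ℕ)) : ℝ) ^ (k + 1) =
        (g.coeff (k + 1) * (((n₀ + q : ℕ)) : ℝ) ^ (k + 1) + ρ * s) +
          ((round ((q : ℝ) * g.coeff (k + 1)) * s : ℤ) : ℝ) := by
      have h1 : (((n₀ + q * l : ℕ)) : ℝ) ^ (k + 1) = (((n₀ + q : ℕ)) : ℝ) ^ (k + 1) + (q : ℝ) * s := by
        linarith
      rw [h1, hρ]
      push_cast
      ring
    rw [hsplit, e_add_int]
    refine (norm_e_sub_e_le _ _).trans ?_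
    rw [add_sub_cancel_left, abs_mul]
    have hx0 : (((n₀ + q * l : ℕ)) : ℝ) ≤ M := by exact_mod_cast hl3
    have hy0 : (((n₀ + q : ℕ)) : ℝ) ≤ M := by
      have : n₀ + q ≤ M := by nlinarith
      exact_mod_cast this
    have hqs : (q : ℝ) * |(s : ℝ)| ≤ (q : ℝ) * L * (k + 1) * (M : ℝ) ^ k := by
      have h1 : (q : ℝ) * |(s : ℝ)| = |(((n₀ + q * l : ℕ)) : ℝ) ^ (k + 1) -
          (((n₀ + q : ℕ)) : ℝ) ^ (k + 1)| := by
        rw [hs', abs_mul, abs_of_pos hq0]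
      rw [h1]
      have h2 := abs_pow_sub_pow_le (((n₀ + q * l : ℕ)) : ℝ) (((n₀ + q : ℕ)) : ℝ) (k + 1)
      refine h2.trans ?_
      have h3 : |(((n₀ + q * l : ℕ)) : ℝ) - (((n₀ + q : ℕ)) : ℝ)| ≤ (q : ℝ) * L := by
        push_cast
        have hl1' : (1 : ℝ) ≤ l := by exact_mod_cast hl1
        have hl2' : (l : ℝ) ≤ L := by exact_mod_cast hl2
        have h4 : (n₀ : ℝ) + q * l - (n₀ + q) = q * (l - 1) := by ring
        rw [h4, abs_mul, abs_of_pos hq0, abs_of_nonneg (by linarith)]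
        gcongr
        linarith
      have h5 : max |(((n₀ + q * l : ℕ)) : ℝ)| |(((n₀ + q : ℕ)) : ℝ)| ≤ M := by
        rw [Nat.abs_cast, Nat.abs_cast]
        exact max_le hx0 hy0
      rw [Nat.add_sub_cancel]
      push_cast
      push_cast at h3 h5
      gcongr
    have hs2 : |(s : ℝ)| ≤ M / P ^ S * (k + 1) * (M : ℝ) ^ k := by
      have hq1 : (1 : ℝ) ≤ q := by exact_mod_cast hq
      calc |(s : ℝ)| ≤ (q : ℝ) * |(s : ℝ)| := le_mul_of_one_le_left (abs_nonneg _) hq1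
        _ ≤ (q : ℝ) * L * (k + 1) * (M : ℝ) ^ k := hqs
        _ ≤ M / P ^ S * (k + 1) * (M : ℝ) ^ k := by gcongr
    have hk1 : ((k : ℝ) + 1) ≤ P ^ (k + 1) := by
      have := nat_le_pow' (k + 1) hP
      push_cast at this
      exact this
    have h32 : (32 : ℝ) ≤ P ^ 5 := by
      calc (32 : ℝ) = 2 ^ 5 := by norm_num
        _ ≤ P ^ 5 := pow_le_pow_left₀ (by norm_num) hP 5
    calc 2 * Real.pi * (|ρ| * |(s : ℝ)|)
        ≤ 2 * 4 * ((P ^ D / (M : ℝ) ^ (k + 1)) * (M / P ^ S * (k + 1) * (M : ℝ) ^ k)) := by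
          gcongr
          exact Real.pi_le_four
      _ = (32 * (k + 1) * P ^ D * P / P ^ S) / (4 * P) := by
          rw [pow_succ (M : ℝ) k]
          field_simp
          ring
      _ ≤ 1 / (4 * P) := by
          have h6 : 32 * ((k : ℝ) + 1) * P ^ D * P / P ^ S ≤ 1 := by
            rw [div_le_one (by positivity)]
            calc 32 * ((k : ℝ) + 1) * P ^ D * P ≤ P ^ 5 * P ^ (k + 1) * P ^ D * P := by gcongr
              _ = P ^ S := by
                  rw [hSD]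
                  ring
          gcongr
      _ = δ / 4 := by
          rw [hδ]
          field_simp
  have hS' : δ * M ≤ ‖∑ n ∈ Finset.Icc 1 M,
      e ((fun n : ℕ => g.coeff (k + 1) * (n : ℝ) ^ (k + 1)) n +
        (fun n : ℕ => (g - C (g.coeff (k + 1)) * X ^ (k + 1)).eval (n : ℝ)) n)‖ := by
    have h1 : ∀ n : ℕ, (fun n : ℕ => g.coeff (k + 1) * (n : ℝ) ^ (k + 1)) n +
        (fun n : ℕ => (g - C (g.coeff (k + 1)) * X ^ (k + 1)).eval (n : ℝ)) n =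
        g.eval (n : ℝ) := by
      intro n
      simp only [eval_sub, eval_mul, eval_C, eval_pow, eval_X]
      ring
    simp only [h1]
    rw [hδ, one_div, inv_mul_le_iff₀ hP0]
    exact hS
  obtain ⟨n₀, hn₀, hn₁⟩ := subprogression _ _ M q L δ hδ0 hδ1 hq hL1 hqL2 hconst hS'
  refine ⟨n₀, L, hL1, hn₀, hML, ?_⟩
  have h7 : δ / 2 * L = L / (2 * P) := by
    rw [hδ]
    field_simp
  rw [h7, div_le_iff₀ (by positivity)] at hn₁
  linarith

theorem coeff_back (k : ℕ) (f : ℝ[X]) (hf : f.natDegree ≤ k) (q n₀ : ℝ) (hq : q ≠ 0) (j : ℕ) :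
    q ^ k * f.coeff j = ∑ i ∈ Finset.range (k + 1),
      (q ^ (k - i) * (-n₀) ^ (i - j) * (i.choose j)) * (f.comp (C n₀ + C q * X)).coeff i := by
  set G : ℝ[X] := f.comp (C n₀ + C q * X) with hG
  have hlin : (C n₀ + C q * X : ℝ[X]).natDegree ≤ 1 := by
    refine (natDegree_add_le _ _).trans (max_le (by simp) ?_)
    exact (natDegree_C_mul_le q X).trans natDegree_X_le
  have hGd : G.natDegree < k + 1 := by
    have h1 : G.natDegree ≤ f.natDegree * (C n₀ + C q * X : ℝ[X]).natDegree := natDegree_comp_le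
    have h2 : f.natDegree * (C n₀ + C q * X : ℝ[X]).natDegree ≤ k * 1 := Nat.mul_le_mul hf hlin
    omega
  have hfG : f = G.comp (C q⁻¹ * (X + C (-n₀))) := by
    rw [hG, comp_assoc]
    have : (C n₀ + C q * X : ℝ[X]).comp (C q⁻¹ * (X + C (-n₀))) = X := by
      rw [add_comp, mul_comp, C_comp, C_comp, X_comp, ← mul_assoc, ← C_mul, mul_inv_cancel₀ hq,
        C_1, one_mul, C_neg]
      ring
    rw [this, comp_X]
  have hcoe : f.coeff j = ∑ i ∈ Finset.range (k + 1),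
      G.coeff i * (q⁻¹ ^ i * ((-n₀) ^ (i - j) * (i.choose j))) := by
    conv_lhs => rw [hfG]
    rw [comp, eval₂_eq_sum_range' C hGd, finsetSum_coeff]
    refine Finset.sum_congr rfl fun i _ => ?_
    rw [coeff_C_mul, mul_pow, ← C_pow, coeff_C_mul, coeff_X_add_C_pow]
  rw [hcoe, Finset.mul_sum]
  refine Finset.sum_congr rfl fun i hi => ?_
  rw [Finset.mem_range] at hi
  have h1 : q ^ k = q ^ (k - i) * q ^ i := by
    rw [← pow_add]
    congr 1
    omega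
  rw [h1, inv_pow]
  field_simp

/-- Transfer of the coefficient bounds back from the progression. -/
theorem coeff_bound (k D F : ℕ) (f : ℝ[X]) (hf : f.natDegree ≤ k) (P : ℝ) (hP : 2 ≤ P)
    (q n₀ M q₂ : ℕ) (hq : 1 ≤ q) (hqD : (q : ℝ) ≤ P ^ D) (hM : 1 ≤ M) (hn₀ : n₀ ≤ M)
    (hG : ∀ i : ℕ, 1 ≤ i → i ≤ k →
      nint ((q₂ : ℝ) * (f.comp (C (n₀ : ℝ) + C (q : ℝ) * X)).coeff i) ≤ P ^ F / (M : ℝ) ^ i)
    (j : ℕ) (hj : 1 ≤ j) :
    nint (((q₂ * q ^ k : ℕ) : ℝ) * f.coeff j) ≤ P ^ (D * k + F + 2 * k + 1) / (M : ℝ) ^ j := by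
  have hP0 : 0 < P := by linarith
  have hP1 : 1 ≤ P := by linarith
  have hM0 : (0 : ℝ) < M := by exact_mod_cast hM
  have hq0 : (0 : ℝ) < q := by exact_mod_cast hq
  have hq1 : (1 : ℝ) ≤ q := by exact_mod_cast hq
  have h1 : ((q₂ * q ^ k : ℕ) : ℝ) * f.coeff j = ∑ i ∈ Finset.range (k + 1),
      (((q : ℤ) ^ (k - i) * (-(n₀ : ℤ)) ^ (i - j) * (i.choose j : ℤ) : ℤ) : ℝ) *
        ((q₂ : ℝ) * (f.comp (C (n₀ : ℝ) + C (q : ℝ) * X)).coeff i) := by
    have h2 := coeff_back k f hf q n₀ hq0.ne' j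
    push_cast
    calc (q₂ : ℝ) * (q : ℝ) ^ k * f.coeff j = q₂ * ((q : ℝ) ^ k * f.coeff j) := by ring
      _ = _ := by
        rw [h2, Finset.mul_sum]
        exact Finset.sum_congr rfl fun i _ => by ring
  rw [h1]
  refine (nint_sum_le' _ _).trans ?_
  have hterm : ∀ i ∈ Finset.range (k + 1),
      nint ((((q : ℤ) ^ (k - i) * (-(n₀ : ℤ)) ^ (i - j) * (i.choose j : ℤ) : ℤ) : ℝ) *
        ((q₂ : ℝ) * (f.comp (C (n₀ : ℝ) + C (q : ℝ) * X)).coeff i)) ≤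
      P ^ (D * k + F + k) / (M : ℝ) ^ j := by
    intro i hi
    rw [Finset.mem_range] at hi
    refine (nint_int_mul_le' _ _).trans ?_
    rcases Nat.lt_or_ge i j with hij | hij
    · rw [Nat.choose_eq_zero_of_lt hij]
      simp only [Nat.cast_zero, mul_zero, Int.cast_zero, abs_zero, zero_mul]
      positivity
    · have h3 := hG i (by omega) (by omega)
      have h4 : |(((q : ℤ) ^ (k - i) * (-(n₀ : ℤ)) ^ (i - j) * (i.choose j : ℤ) : ℤ) : ℝ)| ≤
          P ^ (D * k) * (M : ℝ) ^ (i - j) * P ^ k := by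
        push_cast
        rw [abs_mul, abs_mul, abs_pow, abs_pow, abs_neg, Nat.abs_cast, Nat.abs_cast, Nat.abs_cast]
        have h5 : (q : ℝ) ^ (k - i) ≤ P ^ (D * k) := by
          calc (q : ℝ) ^ (k - i) ≤ (q : ℝ) ^ k := pow_le_pow_right₀ hq1 (by omega)
            _ ≤ (P ^ D) ^ k := by gcongr
            _ = P ^ (D * k) := by rw [← pow_mul]
        have h6 : (n₀ : ℝ) ≤ M := by exact_mod_cast hn₀
        have h7 : ((i.choose j : ℕ) : ℝ) ≤ P ^ k := by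
          calc ((i.choose j : ℕ) : ℝ) ≤ (2 : ℝ) ^ i := by exact_mod_cast Nat.choose_le_two_pow i j
            _ ≤ (2 : ℝ) ^ k := pow_le_pow_right₀ (by norm_num) (by omega)
            _ ≤ P ^ k := by gcongr
        gcongr
      calc |(((q : ℤ) ^ (k - i) * (-(n₀ : ℤ)) ^ (i - j) * (i.choose j : ℤ) : ℤ) : ℝ)| *
            nint ((q₂ : ℝ) * (f.comp (C (n₀ : ℝ) + C (q : ℝ) * X)).coeff i)
          ≤ (P ^ (D * k) * (M : ℝ) ^ (i - j) * P ^ k) * (P ^ F / (M : ℝ) ^ i) := by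
            gcongr
            exact nint_nonneg' _
        _ = P ^ (D * k + F + k) / (M : ℝ) ^ j := by
            have h8 : (M : ℝ) ^ i = (M : ℝ) ^ (i - j) * (M : ℝ) ^ j := by
              rw [← pow_add]
              congr 1
              omega
            rw [h8, pow_add, pow_add]
            field_simp
  refine (Finset.sum_le_sum hterm).trans ?_
  rw [Finset.sum_const, Finset.card_range, nsmul_eq_mul]
  have h9 := nat_le_pow' (k + 1) hP
  calc ((k + 1 : ℕ) : ℝ) * (P ^ (D * k + F + k) / (M : ℝ) ^ j)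
      ≤ P ^ (k + 1) * (P ^ (D * k + F + k) / (M : ℝ) ^ j) := by gcongr
    _ = P ^ (D * k + F + 2 * k + 1) / (M : ℝ) ^ j := by
        rw [mul_div_assoc', ← pow_add]
        congr 2
        omega

theorem WI_succ (k C' : ℕ) (hk : 1 ≤ k) (IH : WI k C') : ∃ C₀ : ℕ, WI (k + 1) C₀ := by
  obtain ⟨D, hD⟩ : ∃ D : ℕ, D = 15 * C' + 6 * k + 15 := ⟨_, rfl⟩
  obtain ⟨S, hSD⟩ : ∃ S : ℕ, S = D + k + 7 := ⟨_, rfl⟩
  obtain ⟨F, hF⟩ : ∃ F : ℕ, F = 2 * C' + (D + S + 1) * k := ⟨_, rfl⟩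
  refine ⟨(D + S) * (k + 1) + (D * k + F + 2 * k + 1) + (2 * C' + D * k + D), ?_⟩
  intro g M P hg hP hM hS
  have hP0 : 0 < P := by linarith
  have hP1 : 1 ≤ P := by linarith
  have hM0 : (0 : ℝ) < M := by exact_mod_cast hM
  have hM1' : (1 : ℝ) ≤ M := by exact_mod_cast hM
  rcases lt_or_ge (M : ℝ) (P ^ (D + S)) with hsmall | hlarge
  · refine ⟨1, le_rfl, ?_, ?_⟩
    · rw [Nat.cast_one]
      exact one_le_pow₀ hP1
    · intro j _ hj
      rw [Nat.cast_one, one_mul]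
      have h1 := nint_le_half' (g.coeff j)
      have h2 : (M : ℝ) ^ j ≤ P ^ ((D + S) * (k + 1) + (D * k + F + 2 * k + 1) +
          (2 * C' + D * k + D)) := by
        calc (M : ℝ) ^ j ≤ (M : ℝ) ^ (k + 1) := pow_le_pow_right₀ hM1' hj
          _ ≤ (P ^ (D + S)) ^ (k + 1) := by gcongr
          _ = P ^ ((D + S) * (k + 1)) := by rw [← pow_mul]
          _ ≤ _ := pow_le_pow_right₀ hP1 (by omega)
      rw [le_div_iff₀ (by positivity)]
      calc nint (g.coeff j) * (M : ℝ) ^ j ≤ 1 * (M : ℝ) ^ j := by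
            gcongr
            linarith
        _ ≤ _ := by rw [one_mul]; exact h2
  · obtain ⟨q₁, h1q₁, h2q₁, h3q₁⟩ := leading k C' hk IH g M P hg hP
      ((pow_le_pow_right₀ hP1 (by omega)).trans hlarge) hS
    rw [← hD] at h2q₁ h3q₁
    obtain ⟨n₀, L, hL1, hn₀, hML, hLS⟩ := reduce k D S hSD g M P hP q₁ h1q₁ h2q₁ h3q₁ hlarge hS
    set f : ℝ[X] := g - C (g.coeff (k + 1)) * X ^ (k + 1) with hf
    have hfd : f.natDegree ≤ k := by
      rw [natDegree_le_iff_coeff_eq_zero]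
      intro N hN
      rw [hf, coeff_sub, coeff_C_mul, coeff_X_pow]
      rcases Nat.lt_or_ge (k + 1) N with h1 | h1
      · rw [coeff_eq_zero_of_natDegree_lt (by omega), if_neg (by omega), mul_zero, sub_zero]
      · have : N = k + 1 := by omega
        rw [this, if_pos rfl, mul_one, sub_self]
    have hfj : ∀ j : ℕ, j ≤ k → f.coeff j = g.coeff j := by
      intro j hj
      rw [hf, coeff_sub, coeff_C_mul, coeff_X_pow, if_neg (by omega), mul_zero, sub_zero]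
    have hGd : (f.comp (C (n₀ : ℝ) + C (q₁ : ℝ) * X)).natDegree ≤ k := by
      have hlin : (C (n₀ : ℝ) + C (q₁ : ℝ) * X : ℝ[X]).natDegree ≤ 1 := by
        refine (natDegree_add_le _ _).trans (max_le (by simp) ?_)
        exact (natDegree_C_mul_le _ X).trans natDegree_X_le
      have h1 : (f.comp (C (n₀ : ℝ) + C (q₁ : ℝ) * X)).natDegree ≤
          f.natDegree * (C (n₀ : ℝ) + C (q₁ : ℝ) * X : ℝ[X]).natDegree := natDegree_comp_le
      have h2 : f.natDegree * (C (n₀ : ℝ) + C (q₁ : ℝ) * X : ℝ[X]).natDegree ≤ k * 1 :=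
        Nat.mul_le_mul hfd hlin
      omega
    have hLS' : (L : ℝ) ≤ 2 * P * ‖∑ l ∈ Finset.Icc 1 L,
        e ((f.comp (C (n₀ : ℝ) + C (q₁ : ℝ) * X)).eval (l : ℝ))‖ := by
      have h1 : ∀ l : ℕ, (f.comp (C (n₀ : ℝ) + C (q₁ : ℝ) * X)).eval (l : ℝ) =
          f.eval (((n₀ + q₁ * l : ℕ)) : ℝ) := by
        intro l
        rw [eval_comp]
        congr 1
        simp
      simp only [h1]
      exact hLS
    have h2P : (2 : ℝ) ≤ 2 * P := by linarith
    obtain ⟨q₂, h1q₂, h2q₂, h3q₂⟩ := IH (f.comp (C (n₀ : ℝ) + C (q₁ : ℝ) * X)) L (2 * P)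
      hGd h2P hL1 hLS'
    have h2PC : (2 * P) ^ C' ≤ P ^ (2 * C') := by
      calc (2 * P) ^ C' ≤ (P * P) ^ C' := by gcongr
        _ = P ^ (2 * C') := by rw [← pow_two, ← pow_mul]
    have hL0 : (0 : ℝ) < L := by exact_mod_cast hL1
    have hG : ∀ i : ℕ, 1 ≤ i → i ≤ k →
        nint ((q₂ : ℝ) * (f.comp (C (n₀ : ℝ) + C (q₁ : ℝ) * X)).coeff i) ≤
          P ^ F / (M : ℝ) ^ i := by
      intro i hi1 hi2
      refine (h3q₂ i hi1 hi2).trans ?_
      rw [div_le_div_iff₀ (by positivity) (by positivity)]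
      calc (2 * P) ^ C' * (M : ℝ) ^ i ≤ P ^ (2 * C') * (P ^ (D + S + 1) * L) ^ i := by gcongr
        _ = P ^ (2 * C') * (P ^ (D + S + 1)) ^ i * (L : ℝ) ^ i := by rw [mul_pow, mul_assoc]
        _ ≤ P ^ (2 * C') * (P ^ (D + S + 1)) ^ k * (L : ℝ) ^ i := by
            gcongr
            exact one_le_pow₀ hP1
        _ = P ^ F * (L : ℝ) ^ i := by rw [← pow_mul, ← pow_add, hF]
    have hn₀M : n₀ ≤ M := by omega
    refine ⟨q₂ * q₁ ^ k, ?_, ?_, ?_⟩
    · have : 0 < q₂ * q₁ ^ k := by positivity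
      omega
    · push_cast
      calc (q₂ : ℝ) * (q₁ : ℝ) ^ k ≤ P ^ (2 * C') * (P ^ D) ^ k := by
            gcongr
            exact h2q₂.trans h2PC
        _ = P ^ (2 * C' + D * k) := by rw [← pow_mul, ← pow_add]
        _ ≤ _ := pow_le_pow_right₀ hP1 (by omega)
    · intro j hj1 hj2
      rcases Nat.lt_or_ge k j with hkj | hkj
      · have hj : j = k + 1 := by omega
        subst hj
        obtain ⟨k', rfl⟩ : ∃ k', k = k' + 1 := ⟨k - 1, by omega⟩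
        have h1 : ((q₂ * q₁ ^ (k' + 1) : ℕ) : ℝ) * g.coeff (k' + 1 + 1) =
            ((q₂ * q₁ ^ k' : ℕ) : ℝ) * ((q₁ : ℝ) * g.coeff (k' + 1 + 1)) := by
          push_cast
          ring
        rw [h1]
        refine (nint_nat_mul_le' _ _).trans ?_
        have h2 : ((q₂ * q₁ ^ k' : ℕ) : ℝ) ≤ P ^ (2 * C' + D * k') := by
          push_cast
          calc (q₂ : ℝ) * (q₁ : ℝ) ^ k' ≤ P ^ (2 * C') * (P ^ D) ^ k' := by
                gcongr
                exact h2q₂.trans h2PC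
            _ = P ^ (2 * C' + D * k') := by rw [← pow_mul, ← pow_add]
        calc ((q₂ * q₁ ^ k' : ℕ) : ℝ) * nint ((q₁ : ℝ) * g.coeff (k' + 1 + 1))
            ≤ P ^ (2 * C' + D * k') * (P ^ D / (M : ℝ) ^ (k' + 1 + 1)) := by
              gcongr
              exact nint_nonneg' _
          _ = P ^ (2 * C' + D * k' + D) / (M : ℝ) ^ (k' + 1 + 1) := by
              rw [mul_div_assoc', ← pow_add]
          _ ≤ _ := by
              refine div_le_div_of_nonneg_right (pow_le_pow_right₀ hP1 ?_) (by positivity)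
              have : D * k' + D = D * (k' + 1) := by ring
              omega
      · have h1 := coeff_bound k D F f hfd P hP q₁ n₀ M q₂ h1q₁ h2q₁ hM hn₀M hG j hj1
        rw [hfj j hkj] at h1
        refine h1.trans ?_
        exact div_le_div_of_nonneg_right (pow_le_pow_right₀ hP1 (by omega)) (by positivity)

theorem WI_exists (k : ℕ) (hk : 1 ≤ k) : ∃ C₀ : ℕ, WI k C₀ := by
  induction k, hk using Nat.le_induction with
  | base => exact ⟨1, WI_one⟩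
  | succ k hk ih =>
    obtain ⟨C', IH⟩ := ih
    exact WI_succ k C' hk IH

end WeylInv

/-- Inverse theorem for Weyl sums (Green–Tao form): a large exponential sum of a real polynomial
forces all nonconstant coefficients to be close to rationals with a common small denominator.

PROOF, by induction on `k`. All constants `C_i` depend on `k` only; since `1/δ ≥ 2`, any bound
`C₁ (1/δ)^{C₂}` is `≤ (1/δ)^{C₃}`. If `M ≤ (1/δ)^{C₀}` take `q = 1` (`nint ≤ 1/2`), so `M` may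
be assumed larger than any fixed power of `1/δ`.

`k = 1`: geometric sum: `δ M ≤ |∑ e(g₁ n)| ≤ 1/(2 nint g₁)` (or `nint g₁ = 0`), `q = 1`.

`k - 1 → k`. `weyl_diff` with `φ n = g(n)` gives at least `δ² M/8` values `h ∈ [1, M-1]` with
`|∑_{n ≤ M-h} e(g(n+h) - g(n))| ≥ δ² M/8 ≥ (δ²/8)(M-h)`; then `M - h ≥ δ² M/8`. The polynomial
`Δ_h g (x) = g(x+h) - g(x)` has degree `≤ k-1` and coefficient `k h g_k` of `x^{k-1}`; induction
(with `δ²/8`) gives `q_h ≤ (8/δ²)^{C'}` with `nint (q_h k h g_k) ≤ (1/δ)^{C₁} / M^{k-1}`.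
Pigeonhole over `q_h`: some `q₀ ≤ (8/δ²)^{C'}` works for at least `δ^{C₂} M` values of `h`.
`recurrence` with `γ = q₀ k g_k`, `η = δ^{C₂}`, `ε = (1/δ)^{C₁}/M^{k-1}` (`ε < η/24` as `M` is
large and `k ≥ 2`) gives `q₁ ≤ (1/δ)^{C₃}`, `q₁` a multiple of `q₀ k`, with
`nint (q₁ g_k) ≤ (1/δ)^{C₃}/M^k`. Write `g_k = a/q₁ + β`, `|β| ≤ (1/δ)^{C₃}/(q₁ M^k)`.
Now `subprogression` with `φ₁ n = g_k n^k`, `φ₂ = g - g_k x^k`, `q = q₁`,
`L = ⌊δ^{C₄} M/q₁⌋`: on a progression `n₀ + q₁ l`, `(a/q₁)(n₀+q₁ l)^k` is constant mod 1, and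
`β n^k` varies by at most `|β| k M^{k-1} q₁ L ≤ small`. We get `n₀` with
`|∑_{l ≤ L} e(G(l))| ≥ (δ/2) L`, `G(l) = (g - g_k x^k)(n₀ + q₁ l)` of degree `≤ k-1`, whose
coefficients are `G_j = q₁^j ∑_{i ≥ j} C(i,j) g_i n₀^{i-j}`. Induction: `q₂ ≤ (2/δ)^{C'}` with
`nint (q₂ G_j) ≤ (1/δ)^{C₅}/M^j`, `1 ≤ j ≤ k-1`. Take `q = q₂ q₁^k`. Descending induction on `j`:
`q₂ q₁^{k-1} G_j`-type multiples minus `q₁^j ∑_{i>j} C(i,j) g_i n₀^{i-j}` (with `n₀ ≤ M` and
`nint (m x) ≤ m nint x`, `nint (x+y) ≤ nint x + nint y`) give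
`nint (q g_j) ≤ (1/δ)^{C}/M^j` for all `1 ≤ j ≤ k`. (In the descending step multiply by extra
powers of `q₁` if convenient, e.g. use `q = q₂ q₁^{k^2}`.) -/
theorem weyl_inverse (k : ℕ) (hk : 1 ≤ k) : ∃ C : ℕ, ∀ (g : ℝ[X]) (M : ℕ) (δ : ℝ),
    g.natDegree ≤ k → 0 < δ → δ ≤ 1 / 2 → 1 ≤ M →
    δ * M ≤ ‖∑ n ∈ Finset.Icc 1 M, e (g.eval (n : ℝ))‖ →
    ∃ q : ℕ, 1 ≤ q ∧ (q : ℝ) ≤ (1 / δ) ^ C ∧
      ∀ j : ℕ, 1 ≤ j → j ≤ k → nint ((q : ℝ) * g.coeff j) ≤ (1 / δ) ^ C / (M : ℝ) ^ j := by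
  obtain ⟨C₀, hC⟩ := WeylInv.WI_exists k hk
  refine ⟨C₀, ?_⟩
  intro g M δ hg hδ hδ1 hM hS
  refine hC g M (1 / δ) hg ?_ hM ?_
  · rw [le_div_iff₀ hδ]
    linarith
  · rw [one_div, ← div_eq_inv_mul, le_div_iff₀ hδ]
    linarith

end Vale.Agent.P042.UB
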