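import Vale.Agent.Lib.P042.UB.Defs

set_option autoImplicit false

namespace Vale.Agent.P042.UB

theorem nint_le_abs_sub (t : ℝ) (m : ℤ) : nint t ≤ |t - m| := by
  unfold nint
  exact round_le t m

/-- Recurrence lemma (Vinogradov).

PROOF. Dirichlet (Mathlib: `Real.exists_int_int_abs_mul_sub_le` or
`Real.exists_rat_abs_sub_le_and_den_le`) with bound `2M`: there are `1 ≤ q ≤ 2M` and `a` coprime
to `q` with `|γ - a/q| ≤ 1/(2 M q)`. For `h ≤ M`: `|h γ - h a / q| ≤ 1/(2q)`. Cover `[1, M]` by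
`⌈M/q⌉ ≤ M/q + 1 ≤ 3M/q` blocks of `q` consecutive integers; in a block `h a mod q` runs over all
residues once, and the number of residues `r` with `‖r/q‖ ≤ ε + 1/(2q)` is at most `2 ε q + 2`.
So `η M ≤ card T ≤ (3M/q)(2 ε q + 2) = 6 ε M + 6 M / q`, and `6 ε < η/4` gives `q < 8/η`.
If `h ∈ T` and `q ∤ h` then `nint (h a/q) ≥ 1/q`, so `nint (h γ) ≥ 1/(2q) > η/16 > ε`,
contradiction. So every `h ∈ T` is a multiple of `q`; with `β = γ - a/q`, `h γ = integer + h β`,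
`|h β| ≤ 1/(2q) ≤ 1/2`, so `|h β| = nint (h γ) ≤ ε` for all `h ∈ T`. The largest `h ∈ T` is
`≥ card T ≥ η M`, so `|β| ≤ ε/(η M)` and `nint (q γ) ≤ q |β| ≤ (8/η) ε/(η M)`. -/
theorem recurrence (γ η ε : ℝ) (M : ℕ) (T : Finset ℕ) (hM : 1 ≤ M) (hT : T ⊆ Finset.Icc 1 M)
    (hη : 0 < η) (hη1 : η ≤ 1) (hcard : η * M ≤ (T.card : ℝ)) (hε : 0 ≤ ε) (hεη : ε < η / 24)
    (hh : ∀ h ∈ T, nint ((h : ℝ) * γ) ≤ ε) :
    ∃ q : ℕ, 1 ≤ q ∧ (q : ℝ) ≤ 12 / η ∧ nint ((q : ℝ) * γ) ≤ 12 * ε / (η ^ 2 * M) := by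
  classical
  have hM0 : (0 : ℝ) < M := by exact_mod_cast hM
  obtain ⟨x, hx1, hx2⟩ := Real.exists_rat_abs_sub_le_and_den_le γ (n := 2 * M) (by omega)
  set q : ℕ := x.den with hq
  set a : ℤ := x.num with ha
  have hq0 : 0 < q := x.pos
  have hq0' : (0 : ℝ) < q := by exact_mod_cast hq0
  have hq2 : (q : ℝ) ≤ 2 * M := by exact_mod_cast hx2
  have hxq : (x : ℝ) = a / q := by
    rw [ha, hq]
    exact_mod_cast (Rat.num_div_den x).symm
  set β : ℝ := γ - x with hβ
  have hβ1 : |β| * q * (2 * M + 1) ≤ 1 := by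
    have h1 : |β| ≤ 1 / ((2 * M + 1) * q) := by
      have := hx1
      push_cast at this
      exact this
    rw [le_div_iff₀ (by positivity)] at h1
    linarith
  -- the small quantity
  have hhβ : ∀ h : ℕ, h ≤ M → |(h : ℝ) * β| * q ≤ 1 / 2 := by
    intro h hhM
    have h1 : (h : ℝ) ≤ M := by exact_mod_cast hhM
    rw [abs_mul, abs_of_nonneg (by positivity : (0 : ℝ) ≤ h)]
    have h2 : (0 : ℝ) ≤ |β| * q := by positivity
    have h3 : (h : ℝ) * |β| * q ≤ M * (|β| * q) := by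
      rw [mul_assoc]
      exact mul_le_mul_of_nonneg_right h1 h2
    nlinarith
  set R : ℤ := ⌊(q : ℝ) * ε + 1 / 2⌋ with hR
  have hR0 : 0 ≤ R := Int.floor_nonneg.2 (by positivity)
  have hr : ∀ h ∈ T, |((h : ℤ) * a - q * round ((h : ℝ) * γ) : ℤ)| ≤ R := by
    intro h hT'
    have hhM := (Finset.mem_Icc.1 (hT hT')).2
    rw [hR, Int.le_floor]
    push_cast
    have e1 : (h : ℝ) * a - q * round ((h : ℝ) * γ) =
        q * (((h : ℝ) * γ - round ((h : ℝ) * γ)) - (h : ℝ) * β) := by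
      rw [hβ, hxq]
      field_simp
      ring
    rw [e1, abs_mul, abs_of_pos hq0']
    have h2 := abs_sub ((h : ℝ) * γ - round ((h : ℝ) * γ)) ((h : ℝ) * β)
    have h3 : |(h : ℝ) * γ - round ((h : ℝ) * γ)| ≤ ε := hh h hT'
    have h4 := hhβ h hhM
    calc (q : ℝ) * |((h : ℝ) * γ - round ((h : ℝ) * γ)) - (h : ℝ) * β|
        ≤ q * (ε + |(h : ℝ) * β|) := mul_le_mul_of_nonneg_left (by linarith) hq0'.le
      _ = q * ε + |(h : ℝ) * β| * q := by ring
      _ ≤ q * ε + 1 / 2 := by linarith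
  have hcop : IsCoprime (q : ℤ) a := by
    rw [Int.isCoprime_iff_gcd_eq_one, Int.gcd_comm]
    have := x.reduced
    rw [ha, hq]
    simpa [Int.gcd, Int.natAbs_natCast] using this
  have hcardT : T.card ≤ (2 * R + 1).toNat * ((M - 1) / q + 1) := by
    have hinj : Set.InjOn (fun h : ℕ => ((h : ℤ) * a - q * round ((h : ℝ) * γ), (h - 1) / q)) T := by
      intro h1 hh1 h2 hh2 heq
      simp only [Prod.mk.injEq] at heq
      obtain ⟨e1, e2⟩ := heq
      have hm1 := Finset.mem_Icc.1 (hT hh1)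
      have hm2 := Finset.mem_Icc.1 (hT hh2)
      have hd : (q : ℤ) ∣ ((h1 : ℤ) - h2) * a := by
        refine ⟨round ((h1 : ℝ) * γ) - round ((h2 : ℝ) * γ), ?_⟩
        linarith
      have hd2 : (q : ℤ) ∣ (h1 : ℤ) - h2 := hcop.dvd_of_dvd_mul_right hd
      have hd3 : (h1 - 1) ≡ (h2 - 1) [MOD q] := by
        rw [← Int.natCast_modEq_iff, Nat.cast_sub hm1.1, Nat.cast_sub hm2.1]
        apply (Int.modEq_iff_dvd.2 ?_)
        have : ((h2 : ℤ) - ((1 : ℕ) : ℤ)) - ((h1 : ℤ) - ((1 : ℕ) : ℤ)) = -((h1 : ℤ) - h2) := by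
          ring
        rw [this]
        exact hd2.neg_right
      have e3 : h1 - 1 = h2 - 1 := by
        rw [← Nat.div_add_mod (h1 - 1) q, ← Nat.div_add_mod (h2 - 1) q, e2]
        rw [show (h1 - 1) % q = (h2 - 1) % q from hd3]
      omega
    have hmaps : Set.MapsTo (fun h : ℕ => ((h : ℤ) * a - q * round ((h : ℝ) * γ), (h - 1) / q)) T
        (Finset.Icc (-R) R ×ˢ Finset.range ((M - 1) / q + 1) : Finset (ℤ × ℕ)) := by
      intro h hh1
      have hm1 := Finset.mem_Icc.1 (hT hh1)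
      rw [Finset.mem_coe, Finset.mem_product, Finset.mem_Icc, Finset.mem_range]
      refine ⟨abs_le.1 (hr h hh1), ?_⟩
      exact Nat.lt_succ_of_le (Nat.div_le_div_right (by omega))
    have := Finset.card_le_card_of_injOn _ hmaps hinj
    rw [Finset.card_product, Int.card_Icc, Finset.card_range] at this
    convert this using 3
    ring
  have hcardR : (T.card : ℝ) ≤ (2 * (q * ε) + 2) * (3 * M / q) := by
    have h1 : (T.card : ℝ) ≤ (((2 * R + 1).toNat : ℕ) : ℝ) * (((M - 1) / q + 1 : ℕ) : ℝ) := by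
      exact_mod_cast hcardT
    have h2 : (((2 * R + 1).toNat : ℕ) : ℝ) ≤ 2 * (q * ε) + 2 := by
      have h3 : (((2 * R + 1).toNat : ℕ) : ℤ) = 2 * R + 1 := Int.toNat_of_nonneg (by omega)
      have h4 : (((2 * R + 1).toNat : ℕ) : ℝ) = 2 * R + 1 := by exact_mod_cast h3
      rw [h4]
      have h5 : (R : ℝ) ≤ q * ε + 1 / 2 := Int.floor_le _
      linarith
    have h3 : (((M - 1) / q + 1 : ℕ) : ℝ) ≤ 3 * M / q := by
      push_cast
      have h4 : (((M - 1) / q : ℕ) : ℝ) ≤ ((M - 1 : ℕ) : ℝ) / q := Nat.cast_div_le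
      have h5 : ((M - 1 : ℕ) : ℝ) ≤ M := by exact_mod_cast Nat.sub_le M 1
      have h6 : ((M - 1 : ℕ) : ℝ) / q ≤ M / q := div_le_div_of_nonneg_right h5 hq0'.le
      have h7 : (1 : ℝ) ≤ 2 * M / q := by
        rw [le_div_iff₀ hq0']
        linarith
      have h8 : 3 * (M : ℝ) / q = M / q + 2 * M / q := by ring
      rw [h8]
      linarith
    exact h1.trans (mul_le_mul h2 h3 (by positivity) (by positivity))
  have hq8 : (q : ℝ) ≤ 8 / η := by
    have h1 : η * M ≤ (2 * (q * ε) + 2) * (3 * M / q) := hcard.trans hcardR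
    have h2 : (2 * (q * ε) + 2) * (3 * M / q) = (6 * ε + 6 / q) * M := by
      field_simp
      ring
    rw [h2] at h1
    have h3 : η ≤ 6 * ε + 6 / q := le_of_mul_le_mul_right h1 hM0
    have h4 : η * q ≤ 6 * ε * q + 6 := by
      have := mul_le_mul_of_nonneg_right h3 hq0'.le
      have h5 : (6 * ε + 6 / q) * (q : ℝ) = 6 * ε * q + 6 := by field_simp
      rwa [h5] at this
    rw [le_div_iff₀ hη]
    nlinarith
  have hqε : (q : ℝ) * ε < 1 / 2 := by
    have h1 : (q : ℝ) * ε ≤ (8 / η) * ε := mul_le_mul_of_nonneg_right hq8 hε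
    have h2 : (8 / η) * ε < (8 / η) * (η / 24) := mul_lt_mul_of_pos_left hεη (by positivity)
    have h3 : (8 / η) * (η / 24) = 1 / 3 := by
      field_simp
      norm_num
    linarith
  have hRz : R = 0 := by
    apply le_antisymm _ hR0
    rw [hR, ← Int.lt_add_one_iff, Int.floor_lt]
    push_cast
    linarith
  have hTne : T.Nonempty := by
    rw [← Finset.card_pos]
    have : (0 : ℝ) < T.card := lt_of_lt_of_le (by positivity) hcard
    exact_mod_cast this
  set h := T.max' hTne with hh_def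
  have hhT : h ∈ T := T.max'_mem hTne
  have hhM := Finset.mem_Icc.1 (hT hhT)
  have hhbig : (T.card : ℝ) ≤ h := by
    have h1 : T ⊆ Finset.Icc 1 h := fun y hy =>
      Finset.mem_Icc.2 ⟨(Finset.mem_Icc.1 (hT hy)).1, T.le_max' y hy⟩
    have h2 := Finset.card_le_card h1
    rw [Nat.card_Icc] at h2
    exact_mod_cast (by omega : T.card ≤ h)
  have hrh := hr h hhT
  rw [hRz] at hrh
  have hra : ((h : ℤ) * a - q * round ((h : ℝ) * γ) : ℤ) = 0 := abs_nonpos_iff.1 hrh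
  have hra' : (h : ℝ) * a - q * round ((h : ℝ) * γ) = 0 := by exact_mod_cast hra
  have hβh : (h : ℝ) * |β| ≤ ε := by
    have e1 : (h : ℝ) * β = (h : ℝ) * γ - round ((h : ℝ) * γ) := by
      rw [hβ, hxq]
      have h5 : (h : ℝ) * a / q = round ((h : ℝ) * γ) := by
        rw [div_eq_iff hq0'.ne']
        linarith
      rw [mul_sub, ← mul_div_assoc, h5]
    have h3 : |(h : ℝ) * β| ≤ ε := by
      rw [e1]
      exact hh h hhT
    rwa [abs_mul, abs_of_nonneg (by positivity : (0 : ℝ) ≤ h)] at h3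
  have hβM : η * M * |β| ≤ ε := by
    refine le_trans ?_ hβh
    exact mul_le_mul_of_nonneg_right (hcard.trans hhbig) (abs_nonneg _)
  refine ⟨q, hq0, hq8.trans (div_le_div_of_nonneg_right (by norm_num) hη.le), ?_⟩
  refine (nint_le_abs_sub _ a).trans ?_
  have e2 : (q : ℝ) * γ - a = q * β := by
    rw [hβ, hxq]
    field_simp
  rw [e2, abs_mul, abs_of_pos hq0', le_div_iff₀ (by positivity)]
  calc (q : ℝ) * |β| * (η ^ 2 * M) = (q * η) * (η * M * |β|) := by ring
    _ ≤ 8 * ε := by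
        refine mul_le_mul ?_ hβM (by positivity) (by norm_num)
        rwa [le_div_iff₀ hη] at hq8
    _ ≤ 12 * ε := by linarith

end Vale.Agent.P042.UB
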